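import Crest.Agent.X261.Ans.Man3
import Crest.Agent.X261.Jet.TbA
import Crest.Agent.X261.Frb.Main
import Crest.Agent.X261.Psh.Loc
import Crest.Agent.X261.Psh.Hol71

/-!
# Row 261, RELN end (helper93), file `Bas`: weights are basic on a tube

* `ev_eq_of_max`  : strong maximum principle for psh functions;
* `const_of_reg`  : a psh function is constant on a compact connected submanifold;
* `exists_beta`   : the weight of the metric in the frame `dπ` of a tube;
* `bas`           : `u + β` is constant on the fibres.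
-/

set_option autoImplicit false
set_option linter.unusedSectionVars false

open Set Filter Topology Metric Matrix MeasureTheory

namespace Crest.Agent.X261.Rn93

open Crest.Agent.R275.Geo Crest.Agent.R275.Core144
open Crest.Agent.R275.OmT75 (dl dl_chain)
open Crest.Agent.R273.Defs_333 Crest.Agent.R273.UCov_914
open Crest.Agent.R273.Fock_243 (FI Gam)
open Crest.Agent.X261.Top Crest.Agent.X261.Psh
open Crest.Agent.X261.Ans (HA)
open Crest.Agent.X261.Ans.Brg

noncomputable section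

section Max

variable {E : Type} [NormedAddCommGroup E] [NormedSpace ℂ E] [FiniteDimensional ℂ E]

/-- strong maximum principle -/
theorem ev_eq_of_max {D : Set E} {u : E → EReal} (h : IsPsh D u) (hD : IsOpen D) {z : E}
    (hz : z ∈ D) (hle : ∀ᶠ y in 𝓝 z, u y ≤ u z) : ∀ᶠ y in 𝓝 z, u y = u z := by
  by_cases hb : u z = ⊥
  · exact hle.mono fun y hy => by rw [hb] at hy ⊢; exact le_bot_iff.1 hy
  obtain ⟨C, hC⟩ : ∃ C : ℝ, u z = C :=
    ⟨(u z).toReal, (EReal.coe_toReal (h.lt_top z hz).ne hb).symm⟩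
  let _ : MeasurableSpace E := borel E
  have : BorelSpace E := ⟨rfl⟩
  have : FiniteDimensional ℝ E := FiniteDimensional.complexToReal E
  have : ProperSpace E := FiniteDimensional.proper ℂ E
  let μ : Measure E := Measure.addHaar
  obtain ⟨r, hr, hB⟩ := Metric.mem_nhds_iff.1 (inter_mem (hD.mem_nhds hz) hle)
  have h1 := h.lint_ball μ hD (z := z) (r := r) (fun y hy => (hB hy).1) (C := C)
    (fun y hy => hC ▸ (hB hy).2)
  have h2 : cst C (u z) = 0 := by
    rw [hC, cst, ← EReal.coe_sub, sub_self]; simp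
  rw [h2, mul_zero, nonpos_iff_eq_zero] at h1
  replace h1 := (lintegral_eq_zero_iff' ((measurable_cst C).comp_aemeasurable
    (h.aemeasurable hD μ measurableSet_ball fun y hy => (hB hy).1))).1 h1
  have h3 : ∀ᵐ y ∂μ, y ∈ ball z r → (C : EReal) ≤ u y := by
    filter_upwards [(ae_restrict_iff' measurableSet_ball).1 h1] with y hy hyB
    have h4 := le_of_cst_le (C := C) (t := 0) (a := u y) le_rfl (by simpa using (hy hyB).le)
    simpa using h4
  filter_upwards [ball_mem_nhds z hr] with y hy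
  refine le_antisymm (hB hy).2 ?_
  rw [hC]
  exact (IsPsh.const D (EReal.coe_lt_top C)).le_of_ae μ hD (hB hy).1 (h.uscAt hD (hB hy).1)
    (isOpen_ball.mem_nhds hy) h3

variable {M : Type} [TopologicalSpace M] {A : HA E M}

theorem uscAt_of_chart {T : Set M} (hT : IsOpen T) {v : M → EReal}
    (hv : ∀ i, IsPsh ((A.e i).target ∩ (A.e i).symm ⁻¹' T) fun z => v ((A.e i).symm z))
    {y : M} (hy : y ∈ T) : UpperSemicontinuousAt v y := by
  obtain ⟨i, hi⟩ := A.cover y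
  intro a ha
  rw [HA.ev_chart hi]
  refine (hv i).uscAt ((A.e i).isOpen_inter_preimage_symm hT) ⟨(A.e i).map_source hi, ?_⟩ a ?_
  · rw [mem_preimage, (A.e i).left_inv hi]; exact hy
  · simpa only [(A.e i).left_inv hi] using ha

/-- strong maximum principle at a regular point -/
theorem ev_eq_of_reg {T W : Set M} (hT : IsOpen T) {v : M → EReal}
    (hv : ∀ i, IsPsh ((A.e i).target ∩ (A.e i).symm ⁻¹' T) fun z => v ((A.e i).symm z))
    {y : M} (hy : y ∈ T) {d : ℕ} (hr : A.Reg W d y) (hle : ∀ᶠ z in 𝓝 y, z ∈ W → v z ≤ v y) :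
    ∀ᶠ z in 𝓝 y, z ∈ W → v z = v y := by
  obtain ⟨i, hi, hW, φ, ρ, hφ, hρ, h1, h2⟩ := hr
  have e0 : φ (ρ (A.e i y)) = A.e i y := h2.self_of_nhds hW
  have hO := (A.e i).isOpen_inter_preimage_symm hT
  have hyO : A.e i y ∈ (A.e i).target ∩ (A.e i).symm ⁻¹' T :=
    ⟨(A.e i).map_source hi, by rw [mem_preimage, (A.e i).left_inv hi]; exact hy⟩
  have hc : Tendsto φ (𝓝 (ρ (A.e i y))) (𝓝 (A.e i y)) := by
    have := hφ.continuousAt.tendsto
    rwa [e0] at this
  obtain ⟨V, hV, hVo, hVm⟩ := _root_.mem_nhds_iff.1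
    (inter_mem hφ.eventually_analyticAt (hc (hO.mem_nhds hyO)))
  have hp : IsPsh V fun t => v ((A.e i).symm (φ t)) :=
    Hol.comp_hol hO (hv i) (fun t ht => (hV ht).1.differentiableAt.differentiableWithinAt)
      fun t ht => (hV ht).2
  have h3 := ev_eq_of_max hp hVo hVm (by
    filter_upwards [h1, hc.eventually ((HA.ev_chart hi).1 hle)] with t ht ht'
    rw [e0, (A.e i).left_inv hi]
    exact ht' ht.1)
  rw [e0, (A.e i).left_inv hi] at h3
  rw [HA.ev_chart hi]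
  filter_upwards [h2, hρ.continuousAt.tendsto.eventually h3] with z hz hz' hzW
  rwa [hz hzW] at hz'

/-- a psh function is constant on a compact connected submanifold -/
theorem const_of_reg {T W : Set M} (hT : IsOpen T) (hW : W ⊆ T) (hc : IsCompact W)
    (hp : IsPreconnected W) (hr : ∀ y ∈ W, ∃ d, A.Reg W d y) {v : M → EReal}
    (hv : ∀ i, IsPsh ((A.e i).target ∩ (A.e i).symm ⁻¹' T) fun z => v ((A.e i).symm z))
    {y z : M} (hy : y ∈ W) (hz : z ∈ W) : v y = v z := by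
  obtain ⟨m, hm, hmax⟩ := UpperSemicontinuousOn.exists_isMaxOn ⟨y, hy⟩ hc
    (f := v) fun x hx => (uscAt_of_chart hT hv (hW hx)).upperSemicontinuousWithinAt W
  have key : ∀ x ∈ W, v x = v m := fun x hx => by
    refine (hp.induction₂' (fun a b => (v a = v m ↔ v b = v m)) (fun a ha => ?_)
      (fun _ _ _ _ _ _ h1 h2 => h1.trans h2) hm hx).1 rfl
    have : ∀ᶠ b in 𝓝[W] a, (v a = v m ↔ v b = v m) := by
      by_cases h : v a = v m
      · obtain ⟨d, hd⟩ := hr a ha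
        have h1 := ev_eq_of_reg hT hv (hW ha) hd
          (Eventually.of_forall fun b hb => h ▸ hmax hb)
        filter_upwards [nhdsWithin_le_nhds h1, self_mem_nhdsWithin] with b hb hbW
        rw [hb hbW]
      · have h1 := uscAt_of_chart hT hv (hW ha) (v m) (lt_of_le_of_ne (hmax ha) h)
        filter_upwards [nhdsWithin_le_nhds h1] with b hb
        exact iff_of_false h hb.ne
    exact this.mono fun b hb => ⟨hb, hb.symm⟩
  rw [key y hy, key z hz]

end Max

/-! ### the frame `dπ` -/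

variable {n p : ℕ} {M : Type} [TopologicalSpace M] {B : Atl n M}

theorem diffAt_wdg {E : Type} [NormedAddCommGroup E] [NormedSpace ℂ E]
    {v : E → Fin p → Fin n → ℂ} {z : E} (hv : ∀ k a, DifferentiableAt ℂ (fun w => v w k a) z)
    (S : FI n) : DifferentiableAt ℂ (fun w => wdg (v w) S) z := by
  unfold wdg
  by_cases h : S.card = p
  · simp only [dif_pos h, Matrix.det_apply', Matrix.of_apply]
    exact DifferentiableAt.fun_sum fun σ _ =>
      (HasFDerivAt.finsetProd fun k _ => (hv _ _).hasFDerivAt).differentiableAt.const_mul _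
  · simp only [dif_neg h]
    exact differentiableAt_const _

/-- `df_1 ∧ … ∧ df_p` transforms like a form -/
theorem dW_tr {i j : B.ι} {f : M → Cn p} {y : M} (hy : y ∈ (B.e i).source ∩ (B.e j).source)
    (hf : DifferentiableAt ℂ (fun z => f ((B.e j).symm z)) (B.e j y)) :
    dW B i f y = Gam (Jm B i j y)ᵀ *ᵥ dW B j f y := by
  unfold dW
  rw [Jet.Tb.Gam_wdg]
  congr 1
  funext k a
  have h1 : DifferentiableAt ℂ (fun z => f ((B.e j).symm z) k) (B.e j y) :=
    (EuclideanSpace.proj k : Cn p →L[ℂ] ℂ).differentiableAt.comp _ hf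
  rw [dl_chain (j := j) (f := fun y => f y k) (h1.restrictScalars ℝ) hy]
  simp [Matrix.mulVec, dotProduct]

variable {G : Type} [Group G] [MulAction G M]

theorem mem_ti {U : Set M} {i : B.ι} {y : M} (hi : y ∈ (B.e i).source) (hy : y ∈ U) :
    B.e i y ∈ (B.e i).target ∩ (B.e i).symm ⁻¹' U :=
  ⟨(B.e i).map_source hi, by rw [mem_preimage, (B.e i).left_inv hi]; exact hy⟩

theorem dW_ne (𝒯 : Tube B G p) {x : M} (hx : x ∈ 𝒯.M0) {i : B.ι} {y : M} (hy : y ∈ 𝒯.T x)
    (hi : y ∈ (B.e i).source) : dW B i (𝒯.π x) y ≠ 0 := by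
  have h := (Frb.Main.tube_ker (r := n - p) (Nat.add_sub_cancel' (tube_le 𝒯 hx)) 𝒯 hx hy hi
    one_ne_zero rfl).1
  rwa [one_smul] at h

theorem dW_diff (𝒯 : Tube B G p) {x : M} (hx : x ∈ 𝒯.M0) (i : B.ι) (S : FI n) :
    HolAt B i (𝒯.T x) fun y => dW B i (𝒯.π x) y S := by
  intro z hz
  have ha := Frb.Main.tube_diff 𝒯 hx i
  have hO := isOpen_ti (A := B) (i := i) (𝒯.T_opn x hx)
  have h1 : DifferentiableAt ℂ (fun w => wdg (Frb.Main.row
      (fderiv ℂ (fun z => 𝒯.π x ((B.e i).symm z)) w)) S) z := by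
    refine diffAt_wdg (fun k a => ?_) S
    exact (EuclideanSpace.proj k : Cn p →L[ℂ] ℂ).differentiableAt.comp _
      ((ha z hz).fderiv.differentiableAt.clm_apply (differentiableAt_const _))
  refine (h1.congr_of_eventuallyEq ?_).differentiableWithinAt
  filter_upwards [hO.mem_nhds hz] with w hw
  have h2 := (B.e i).right_inv hw.1
  rw [Frb.Main.dW_eq (by rw [h2]; exact (ha w hw).differentiableAt), h2]

/-- the coefficient of `ε` in the frame `dπ` -/
theorem exists_coef (𝒯 : Tube B G p) {L : LB B} {ε : B.ι → M → FI n → ℂ}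
    (hol : ∀ i S, HolAt B i univ fun y => ε i y S)
    (tr : ∀ i j, ∀ y ∈ (B.e i).source ∩ (B.e j).source,
      ε i y = (L.g i j y)⁻¹ • (Gam (Jm B i j y)ᵀ *ᵥ ε j y))
    {x : M} (hx : x ∈ 𝒯.M0) (gen : ∀ i, ∀ y ∈ 𝒯.T x, y ∈ (B.e i).source →
      ∃ c : ℂ, c ≠ 0 ∧ ε i y = c • dW B i (𝒯.π x) y) :
    ∃ c : B.ι → M → ℂ, (∀ i, HolAt B i (𝒯.T x) (c i)) ∧
      (∀ i, ∀ y ∈ 𝒯.T x, y ∈ (B.e i).source → c i y ≠ 0 ∧ ε i y = c i y • dW B i (𝒯.π x) y) ∧
      ∀ i j, ∀ y ∈ 𝒯.T x, y ∈ (B.e i).source ∩ (B.e j).source → c j y = L.g i j y * c i y := by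
  choose! c hc0 hc using gen
  refine ⟨c, fun i z hz => ?_, fun i y hy hi => ⟨hc0 i y hy hi, hc i y hy hi⟩,
    fun i j y hy hij => ?_⟩
  · have hO := isOpen_ti (A := B) (i := i) (𝒯.T_opn x hx)
    obtain ⟨S, hS⟩ := Function.ne_iff.1 (dW_ne 𝒯 hx hz.2 ((B.e i).map_target hz.1))
    replace hS : dW B i (𝒯.π x) ((B.e i).symm z) S ≠ 0 := hS
    have h1 := (dW_diff 𝒯 hx i S).differentiableAt (hO.mem_nhds hz)
    have h2 := ((hol i S).mono (subset_univ (𝒯.T x))).differentiableAt (hO.mem_nhds hz)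
    refine ((h2.mul (h1.inv hS)).congr_of_eventuallyEq ?_).differentiableWithinAt
    filter_upwards [hO.mem_nhds hz, h1.continuousAt.eventually_ne hS] with w hw hw0
    rw [Pi.mul_apply, Pi.inv_apply, eq_mul_inv_iff_mul_eq₀ hw0,
      hc i _ hw.2 ((B.e i).map_target hw.1)]
    rfl
  · have h1 := tr i j y hij
    rw [hc i y hy hij.1, hc j y hy hij.2, Matrix.mulVec_smul, ← dW_tr hij
      (Frb.Main.tube_diff 𝒯 hx j _ (mem_ti hij.2 hy)).differentiableAt, smul_smul] at h1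
    have h2 := smul_left_injective ℂ (dW_ne 𝒯 hx hy hij.1) h1
    rw [h2, ← mul_assoc, mul_inv_cancel₀ (L.ne_zero i j y), one_mul]

/-- the weight of `h` in the frame `dπ` -/
theorem exists_beta (𝒯 : Tube B G p) {L : LB B} (h : HM L) {ε : B.ι → M → FI n → ℂ}
    (hol : ∀ i S, HolAt B i univ fun y => ε i y S)
    (tr : ∀ i j, ∀ y ∈ (B.e i).source ∩ (B.e j).source,
      ε i y = (L.g i j y)⁻¹ • (Gam (Jm B i j y)ᵀ *ᵥ ε j y))
    {x : M} (hx : x ∈ 𝒯.M0) (gen : ∀ i, ∀ y ∈ 𝒯.T x, y ∈ (B.e i).source →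
      ∃ c : ℂ, c ≠ 0 ∧ ε i y = c • dW B i (𝒯.π x) y) :
    ∃ β : M → ℝ, ContinuousOn β (𝒯.T x) ∧ ∀ u, PshW h u → ∀ i,
      IsPsh ((B.e i).target ∩ (B.e i).symm ⁻¹' 𝒯.T x)
        fun z => u ((B.e i).symm z) + (β ((B.e i).symm z) : ℝ) := by
  obtain ⟨c, h1, h2, h3⟩ := exists_coef 𝒯 hol tr hx gen
  choose ch hch using B.cover
  set β : M → ℝ := fun y => -Real.log (h.w (ch y) y) + 2 * Real.log ‖c (ch y) y‖ with hβ
  have e : ∀ i, ∀ y ∈ 𝒯.T x, y ∈ (B.e i).source →
      β y = -Real.log (h.w i y) + 2 * Real.log ‖c i y‖ := fun i y hy hi => by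
    have hg := norm_ne_zero_iff.2 (L.ne_zero i (ch y) y)
    simp only [hβ]
    rw [h.tr i (ch y) y ⟨hi, hch y⟩, h3 i (ch y) y hy ⟨hi, hch y⟩, norm_mul,
      Real.log_mul (pow_ne_zero 2 hg) (h.pos i y hi).ne',
      Real.log_mul hg (norm_ne_zero_iff.2 (h2 i y hy hi).1), Real.log_pow]
    push_cast
    ring
  refine ⟨β, fun y hy => ContinuousAt.continuousWithinAt ?_, fun u hu i => ?_⟩
  · have hi := hch y
    have hO := isOpen_ti (A := B) (i := ch y) (𝒯.T_opn x hx)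
    have hz := mem_ti hi hy
    have hl := (B.e (ch y)).left_inv hi
    have k1 : ContinuousAt (fun z => h.w (ch y) ((B.e (ch y)).symm z)) (B.e (ch y) y) :=
      (h.sm (ch y)).continuousOn.continuousAt ((B.e _).open_target.mem_nhds hz.1)
    have k2 : ContinuousAt (fun z => c (ch y) ((B.e (ch y)).symm z)) (B.e (ch y) y) :=
      (h1 (ch y)).continuousOn.continuousAt (hO.mem_nhds hz)
    have k3 := ((k1.log (by rw [hl]; exact (h.pos _ y hi).ne')).neg.add
      ((k2.norm.log (by rw [hl]; exact norm_ne_zero_iff.2 (h2 _ y hy hi).1)).const_mul 2)).comp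
      ((B.e (ch y)).continuousAt hi)
    refine k3.congr ?_
    filter_upwards [(B.e (ch y)).open_source.mem_nhds hi, (𝒯.T_opn x hx).mem_nhds hy]
      with w hw hwT
    rw [e _ w hwT hw]
    simp only [Function.comp, Pi.add_apply, Pi.neg_apply, (B.e (ch y)).left_inv hw]
  · have hO := isOpen_ti (A := B) (i := i) (𝒯.T_opn x hx)
    refine (((hu i).mono inter_subset_left).add
      ((isPsh_log_norm hO (h1 i)).smul zero_le_two)).congr fun z hz => ?_
    have hi := (B.e i).map_target hz.1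
    simp only [e i _ hz.2 hi, log_enorm_of_ne (h2 i _ hz.2 hi).1, HM.wt, EReal.coe_add,
      EReal.coe_mul, add_assoc]

/-- general form of `bas` -/
theorem bas' (𝒯 : Tube B G p) {L : LB B} (h : HM L) {ε : B.ι → M → FI n → ℂ}
    (hol : ∀ i S, HolAt B i univ fun y => ε i y S)
    (tr : ∀ i j, ∀ y ∈ (B.e i).source ∩ (B.e j).source,
      ε i y = (L.g i j y)⁻¹ • (Gam (Jm B i j y)ᵀ *ᵥ ε j y))
    {x : M} (hx : x ∈ 𝒯.M0) (gen : ∀ i, ∀ y ∈ 𝒯.T x, y ∈ (B.e i).source →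
      ∃ c : ℂ, c ≠ 0 ∧ ε i y = c • dW B i (𝒯.π x) y) :
    ∃ β : M → ℝ, ContinuousOn β (𝒯.T x) ∧ ∀ u, PshW h u → ∀ y ∈ 𝒯.T x, ∀ z ∈ 𝒯.W y,
      u y + (β y : ℝ) = u z + (β z : ℝ) := by
  obtain ⟨β, h1, h2⟩ := exists_beta 𝒯 h hol tr hx gen
  refine ⟨β, h1, fun u hu y hy z hz => ?_⟩
  have hy0 := 𝒯.T_sub x hx hy
  exact const_of_reg (A := HA.of B) (v := fun y => u y + (β y : ℝ)) (𝒯.T_opn x hx)
    (by rw [𝒯.π_fib x hx y hy]; exact fun _ h => h.1) (tube_W_compact 𝒯 hy0) (𝒯.W_conn y hy0)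
    (fun w hw => ⟨_, tube_reg 𝒯 hy0 hw⟩) (h2 u hu) (𝒯.W_mem y hy0) hz

section Cover

variable {X : Type} [TopologicalSpace X] {A : Atl n X} {Γ : Type} [Group Γ] {D : MonD A Γ}

theorem upF_tr (F : Fol D p) (i j : (D.atl Γ).ι) (y : D.cov Γ)
    (hy : y ∈ ((D.atl Γ).e i).source ∩ ((D.atl Γ).e j).source) :
    upF D F.e i y = ((D.pullLB Γ F.L).g i j y)⁻¹ • (Gam (Jm (D.atl Γ) i j y)ᵀ *ᵥ upF D F.e j y) := by
  rw [D.pullLB_g _ hy]
  exact F.tom.tr i.1 j.1 _ ⟨hy.1.1, hy.2.1⟩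

/-- **semipositive singular metrics on `L` are basic on a tube** -/
theorem bas (F : Fol D p) (h : HM F.L) {x : D.cov Γ} (hx : x ∈ F.T.M0) :
    ∃ β : D.cov Γ → ℝ, ContinuousOn β (F.T.T x) ∧ ∀ u, PshW (D.pullHM (F := Γ) h) u →
      ∀ y ∈ F.T.T x, ∀ z ∈ F.T.W y, u y + (β y : ℝ) = u z + (β z : ℝ) :=
  bas' F.T _ (ε := upF D F.e) (fun q S => F.tom.hol q.1 S) (upF_tr F) hx (F.gen x hx)

end Cover

end

end Crest.Agent.X261.Rn93
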