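import Crest.Agent.X261.Rn.Defs
import Crest.Agent.X261.Grp.WR_Mg
import Crest.Agent.X261.Eqv.A
import Crest.Agent.X261.Ans.Man4
import Crest.Agent.X261.Cov.A
import Crest.Agent.X261.Rn93.Bas

-- ▼ part X261/Rn/Main
section

/-!
# Row 261, RELN (helper60), file `Main`: the trichotomy and the non amenable case
-/

set_option autoImplicit false
set_option linter.unusedSectionVars false
set_option linter.dupNamespace false

open Set Filter Topology MeasureTheory Module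

namespace Crest.Agent.X261.Rn

open Crest.Agent.R275.Geo Crest.Agent.R275.Core144
open Crest.Agent.R273.Defs_333 Crest.Agent.R273.UCov_914
open Crest.Agent.X261.Ans Crest.Agent.X261.Ans.Brg
open Crest.Agent.X261.Eqv (TP AE EqvStmt ae_of_cov)
open Crest.Agent.X261.Top (Tube Fol Pol)
open Crest.Agent.X261.Loc (IG Leaf)
open Crest.Agent.X261.Grp (JN WO amen_of_wo)
open Crest.Agent.R189 (Amen)

noncomputable section

section Gen

variable {E : Type} [NormedAddCommGroup E] [NormedSpace ℂ E] [FiniteDimensional ℂ E]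
  [MeasurableSpace E] [BorelSpace E] {μ : Measure E} [μ.IsAddHaarMeasure]
  {M : Type} [TopologicalSpace M] [ConnectedSpace M] {A : HA E M} {G : Type} [Group G]
  [MulAction G M] {T : TP μ A G}

theorem cov_S (O : T.Out) : A.Cov (finrank ℂ E) O.L.Sᶜ := by
  refine O.an_S.cov_of_ne fun h => ?_
  obtain ⟨x, hx⟩ := O.L.ne
  exact (h ▸ mem_univ x : x ∈ O.L.Sᶜ) hx

theorem ae_S (O : T.Out) : AE μ A fun x => x ∈ O.L.S :=
  (ae_of_cov (cov_S O)).mono fun _ h => not_not.1 h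

/-- the elements acting trivially on the leaf space -/
def triv {F : Type} [NormedAddCommGroup F] [NormedSpace ℂ F] (L : Leaf G M F) : Subgroup G where
  carrier := {g | ∀ z ∈ L.S, L.R (L.act g z) z}
  one_mem' := fun z hz => by rw [L.act_one]; exact L.refl z hz
  mul_mem' := fun {a b} ha hb z hz => by
    rw [L.act_mul]
    exact L.trans _ (L.sinv _ _ (L.sinv _ _ hz)) _ (L.sinv _ _ hz) _ hz (ha _ (L.sinv _ _ hz))
      (hb z hz)
  inv_mem' := fun {a} ha z hz => by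
    have h := ha _ (L.sinv a⁻¹ z hz)
    rw [← L.act_mul, mul_inv_cancel, L.act_one] at h
    exact L.symm _ hz _ (L.sinv _ _ hz) h

theorem triv_normal {F : Type} [NormedAddCommGroup F] [NormedSpace ℂ F] (L : Leaf G M F) :
    (triv L).Normal := ⟨fun a ha g z hz => by
  have h1 := L.sinv g⁻¹ z hz
  have h := L.rinv g _ (L.sinv a _ h1) _ h1 (ha _ h1)
  rwa [← L.act_mul, ← L.act_mul, ← L.act_mul, mul_inv_cancel, L.act_one] at h⟩

theorem near_self (O : T.Out) {x : M} (hx : x ∈ O.L.S) (ht : T.Typ x) (k : ℕ) (a : ℝ) :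
    ∃ W ∈ 𝓝 x, ∀ g : G, ∀ z ∈ W, O.L.R (g • x) z → T.Xi k x (g • x) ≤ (a : EReal) := by
  obtain ⟨W, hW, h⟩ := O.near x hx ht.good k (-a)
  have hxW := mem_of_mem_nhds hW
  refine ⟨W, hW, fun g z hz hr => ?_⟩
  have := h g x hxW z hz hr x ⟨hxW, ht.mem⟩ x ⟨hxW, ht.mem⟩
  rwa [neg_neg, T.Xi_symm k _ (T.M0_inv g x ht.mem) _ ht.mem] at this

theorem tr_of_triv (O : T.Out) (h : O.L.Triv) : Tr T := by
  obtain ⟨g, hg1, hg⟩ := h
  refine ⟨triv O.L, triv_normal _, fun h => hg1 (Subgroup.mem_bot.1 (h ▸ hg)),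
    ((ae_S O).and O.typ).mono fun x hx => ⟨hx.2.mem, fun a ha k => ?_⟩⟩
  refine EReal.eq_bot_iff_forall_lt _ |>.2 fun c => ?_
  obtain ⟨W, hW, h⟩ := near_self O hx.1 hx.2 k (c - 1)
  exact (h a x (mem_of_mem_nhds hW) (O.act a x ▸ ha x hx.1)).trans_lt
    (EReal.coe_lt_coe_iff.2 (by linarith))

theorem ig_of_small (O : T.Out) {V : Type} [NormedAddCommGroup V] [NormedSpace ℝ V] {I : IG G V}
    (h : O.L.Small I) : Ig T := by
  obtain ⟨x, -, hx⟩ := ((ae_S O).and O.typ).exists_mem (x := Classical.arbitrary M) univ_mem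
  refine ⟨V, inferInstance, inferInstance, I, x, hx.2.mem, fun k a => ?_⟩
  obtain ⟨W, hW, h1⟩ := near_self O hx.1 hx.2 k a
  obtain ⟨ε, hε, h2⟩ := h x hx.1 W hW
  refine ⟨ε, hε, fun g hg hv => ?_⟩
  obtain ⟨y, hy, hr⟩ := h2 g hg hv
  exact h1 g y hy (O.act g x ▸ hr)

theorem subm_L (O : T.Out) {x y : M} (hx : x ∈ O.L.S) (hy : y ∈ O.L.U x) :
    A.Subm (HA.self (Fin O.p → ℂ)) (O.L.π x) y := by
  obtain ⟨i, hi⟩ := A.cover y
  have h := O.subm x hx y hy i hi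
  have h1 := (HA.hol_self_iff hi).2 h.1
  exact (HA.subm_self_iff h1 hi).2 h.2

theorem not_tr (hG : JN G) (hA : ¬ Amen G) (hK : Kes T) : ¬ Tr T := by
  rintro ⟨N, hN, hN0, h⟩
  obtain ⟨k, c0, C, hc, hK⟩ := hK
  obtain ⟨x, -, hx⟩ := h.exists_mem (x := Classical.arbitrary M) univ_mem
  refine hN0 (hG.eq_bot_of_amen hA hN (amen_of_wo hc fun F hF => hK F x hx.1 fun g hg => ?_))
  rw [hx.2 g (hF g hg) k]
  exact EReal.bot_lt_coe _

theorem not_ig (hG : JN G) (hA : ¬ Amen G) (hK : Kes T) : ¬ Ig T := by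
  rintro ⟨V, _, _, I, x, hx, h⟩
  obtain ⟨k, c0, C, hc, hK⟩ := hK
  obtain ⟨δ, hδ, h⟩ := h k (C - 1)
  exact hA (hG.amen_of_ig I hc hδ fun F hF => hK F x hx fun g hg =>
    (h g (hF g hg).1 (hF g hg).2).trans_lt (EReal.coe_lt_coe_iff.2 (by linarith)))

end Gen

section Shell

variable {n : ℕ} {M : Type} [TopologicalSpace M] [T2Space M] [ConnectedSpace M] {B : Atl n M}
  [Countable B.ι] {G : Type} [Group G] [MulAction G M] {p : ℕ} (𝒯 : Tube B G p)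
  {T : TP volume (HA.of B) G} (O : T.Out)

/-- near `x` related points lie in the same fibre -/
def Loc (x : M) : Prop := ∀ᶠ q in 𝓝 (x, x), O.L.R q.1 q.2 → q.2 ∈ 𝒯.W q.1

theorem loc_of {x : M} (hx : x ∈ O.L.S) (hx0 : x ∈ 𝒯.M0)
    (h : ∀ N ∈ 𝓝 x, ¬ (HA.of B).Cov (finrank ℂ (Cn n))
      (N ∩ {y | ∀ᶠ z in 𝓝 y, O.L.R y z → z ∈ 𝒯.W y})) : Loc 𝒯 O x := by
  have ho : IsOpen (O.L.U x ∩ 𝒯.T x) := (O.L.U_opn x hx).inter (𝒯.T_opn x hx0)
  have hn : O.L.U x ∩ 𝒯.T x ∈ 𝓝 x := ho.mem_nhds ⟨O.L.U_mem x hx, 𝒯.T_mem x hx0⟩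
  have h1 := inc_of_not_cov (subm_L O hx (O.L.U_mem x hx))
    (tube_subm 𝒯 hx0 (𝒯.T_mem x hx0)).hol (fun N hN hc => h _ (inter_mem hN hn) (hc.sub ?_))
  · filter_upwards [h1, prod_mem_nhds hn hn] with q hq hm hr
    rw [𝒯.π_fib x hx0 _ hm.1.2]
    exact ⟨hm.2.2, (hq ((O.L.π_rel x hx _ hm.1.1 _ hm.2.1).1 hr)).symm⟩
  · rintro y ⟨⟨hy1, hy2⟩, hy3⟩
    refine ⟨hy1, ?_⟩
    filter_upwards [hy3, ho.mem_nhds hy2] with z hz hm he
    have := hz ((O.L.π_rel x hx _ hy2.1 _ hm.1).2 he)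
    rw [𝒯.π_fib x hx0 _ hy2.2] at this
    exact this.2.symm

theorem Loc.ev {x : M} (h : Loc 𝒯 O x) : ∀ᶠ y in 𝓝 x, Loc 𝒯 O y :=
  ((continuous_id.prodMk continuous_id).tendsto x).eventually (eventually_eventually_nhds.2 h)

theorem Loc.sl {x : M} (h : Loc 𝒯 O x) : ∀ᶠ z in 𝓝 x, O.L.R x z → z ∈ 𝒯.W x :=
  ((continuous_const.prodMk continuous_id).tendsto x).eventually h

theorem loc_all (hW : O.L.Wand) : ∀ x ∈ O.L.S ∩ 𝒯.M0, Loc 𝒯 O x := by
  obtain ⟨V, hV, hVne, hVS, -, -, -, hZ⟩ := O.wand hW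
  obtain ⟨x, hx0, hxV⟩ := (tube_dense 𝒯).exists_mem_open hV hVne
  have hthin := cov_iff_sthM'.2 𝒯.thin
  have h1 : Loc 𝒯 O x := by
    refine loc_of 𝒯 O (hVS hxV) hx0 fun N hN hc => ?_
    refine (hc.union (cov_iff_sthM'.2 𝒯.bad_thin)).not_mem_nhds x ?_
    filter_upwards [hN, hV.mem_nhds hxV, 𝒯.opn.mem_nhds hx0] with y h1 h2 h3
    by_cases hb : y ∈ 𝒯.Bad
    · exact Or.inr hb
    obtain ⟨Z, z1, z2, z3, z4, z5⟩ := hZ y h2
    exact Or.inl ⟨h1, z5.mono fun z hz hr =>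
      𝒯.max y h3 hb Z z1 z2 (anM_of_an (finEq _) z3) z4 (hz hr)⟩
  have hc : IsPreconnected (O.L.S ∩ 𝒯.M0) := by
    have := HA.preconnected_diff O.L.opn O.L.conn hthin
      (by rw [sdiff_compl]; exact O.L.opn.inter 𝒯.opn)
    rwa [sdiff_compl] at this
  refine fun y hy => hc.subset_of_closure_inter_subset (u := {x | Loc 𝒯 O x})
    (isOpen_iff_mem_nhds.2 fun z hz => Loc.ev 𝒯 O hz) ⟨x, ⟨hVS hxV, hx0⟩, h1⟩ ?_ hy
  rintro z ⟨hz1, hz2⟩
  refine loc_of 𝒯 O hz2.1 hz2.2 fun N hN hc => ?_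
  obtain ⟨w, hw1, hw2⟩ := mem_closure_iff_nhds.1 hz1 _ (eventually_mem_nhds_iff.2 hN)
  exact hc.not_mem_nhds w (inter_mem hw1 ((Loc.ev 𝒯 O hw2).mono fun u hu => Loc.sl 𝒯 O hu))

theorem shell_of_wand (hW : O.L.Wand) : Shell 𝒯 T := by
  have := (HA.of B).locallyCompact
  refine (((ae_S O).and (ae_of_cov (cov_iff_sthM'.2 𝒯.thin))).and O.typ).mono ?_
  rintro y ⟨⟨hy, hy0⟩, ht⟩
  have hy0 : y ∈ 𝒯.M0 := not_not.1 hy0
  have h1 := Loc.sl 𝒯 O (loc_all 𝒯 O hW y ⟨hy, hy0⟩)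
  obtain ⟨K, hK, hKs, hKc⟩ := local_compact_nhds (inter_mem h1 (inter_mem
    ((O.L.U_opn y hy).mem_nhds (O.L.U_mem y hy)) ((𝒯.T_opn y hy0).mem_nhds (𝒯.T_mem y hy0))))
  refine ⟨hy0, ht, O.k0, K, hK, fun ρ hρ => ?_⟩
  have hcl : IsCompact (K ∩ (fun x => ‖𝒯.π y x‖) ⁻¹' Ici ρ) :=
    hKc.of_isClosed_subset (((𝒯.π_cont y hy0).mono fun x hx => (hKs hx).2.2).norm
      |>.preimage_isClosed_of_isClosed hKc.isClosed isClosed_Ici) inter_subset_left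
  obtain ⟨a, ha⟩ := O.far O.k0 le_rfl y hy _ (hcl.prod (isCompact_singleton (x := y))) (by
    rintro ⟨x, w⟩ ⟨⟨hx1, hx2⟩, rfl⟩
    refine ⟨(hKs hx1).2.1, O.L.U_mem _ hy, fun he => ?_⟩
    have h2 := (hKs hx1).1 ((O.L.π_rel _ hy _ (O.L.U_mem _ hy) _ (hKs hx1).2.1).2 he.symm)
    rw [tube_W_eq 𝒯 hy0] at h2
    have h3 : ρ ≤ ‖𝒯.π w x‖ := hx2
    rw [h2.2, norm_zero] at h3
    exact h3.not_gt hρ)
  refine ⟨-a, fun x hx _ hxρ hx0 => le_of_not_ge fun h => ?_⟩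
  exact ha (x, y) ⟨⟨hx, hxρ⟩, rfl⟩ (subset_closure ⟨hx0, ht.mem, h⟩)

end Shell

theorem relnB_of (hQ : EqvStmt) : RelnBStmt := by
  intro n hn M _ _ _ B _ G _ _ _ p 𝒯 T
  have : Nonempty (Fin n) := ⟨⟨0, hn⟩⟩
  obtain ⟨O⟩ := hQ (Cn n) volume M (HA.of B) G T
  rcases Loc.Car.tri O.L with h | h | ⟨c, ρ, I, h⟩
  · exact Or.inr (Or.inr (shell_of_wand 𝒯 O h))
  · exact Or.inl (tr_of_triv O h)
  · exact Or.inr (Or.inl (ig_of_small O h))

/-- the text of `Gauss.PolShStmt` -/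
def PolSh : Prop :=
  ∀ (n : ℕ), 1 ≤ n → ∀ (X : Type) [TopologicalSpace X] [T2Space X] (A : Atl n X)
    [Finite A.ι] (G : Type) [Group G] (D : MonD A G), ConnectedSpace (D.cov G) →
    ∀ (p : ℕ) (F : Fol D p) (h : HM F.L) (T : TP volume (HA.of (D.atl G)) G),
      T.wt = wtD D h → (∀ x, T.φ x ≤ 0) → Shell F.T T → Nonempty (Pol F h)

theorem relnA_of (hB : RelnBStmt) (hP : PolSh) : RelnAStmt := by
  intro n hn X _ _ A _ G _ D hc hG hA p F h T hw h0 hK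
  have : Countable G := X261.Cov.A.countable D
  have : Countable (D.atl G).ι := inferInstanceAs (Countable (A.ι × G))
  rcases hB n hn (D.cov G) (D.atl G) G p F.T T with h1 | h1 | h1
  · exact absurd h1 (not_tr hG hA hK)
  · exact absurd h1 (not_ig hG hA hK)
  · exact hP n hn X A G D hc p F h T hw h0 h1

end

end Crest.Agent.X261.Rn
end

-- ▼ part X261/Rn93/Pol

/-!
# Row 261, RELN end (helper93), file `Pol`: from a local shell bound to `Pol`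

* `shell_tube`   : a lower bound a.e. near the base point spreads along the fibres;
* `pol_of_loc`   : `Pol` from two weights, a pole and a local shell bound;
* `pol_of_shell` : `Pol` from `Rn.Shell`.
-/

set_option autoImplicit false
set_option linter.unusedSectionVars false

open Set Filter Topology Metric MeasureTheory

namespace Crest.Agent.X261.Rn93

open Crest.Agent.R275.Geo Crest.Agent.R275.Core144
open Crest.Agent.R273.Defs_333 Crest.Agent.R273.UCov_914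
open Crest.Agent.X261.Top Crest.Agent.X261.Psh
open Crest.Agent.X261.Ans (HA)
open Crest.Agent.X261.Ans.Brg
open Crest.Agent.X261.Eqv (TP AE)

noncomputable section

theorem le_of_add_coe {a b : EReal} {c : ℝ} (h : a + c ≤ b + c) : a ≤ b :=
  (EReal.addLECancellable_coe c).add_le_add_iff_right.1 h

variable {n p : ℕ} {M : Type} [TopologicalSpace M] {B : Atl n M} {L : LB B} {h : HM L}

theorem pshW_add {u : M → EReal} (hu : PshW h u) (a : ℝ) : PshW h fun x => u x + a := fun i =>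
  ((hu i).add_const a).congr fun _ _ => add_right_comm _ _ _

theorem pshW_max {u v : M → EReal} (hu : PshW h u) (hv : PshW h v) :
    PshW h fun x => max (u x) (v x) := fun i =>
  ((hu i).sup (hv i)).congr fun _ _ => (max_add_add_right _ _ _)

theorem pshW_of_loc {u : M → EReal} (hu : ∀ x, ∃ v, PshW h v ∧ u =ᶠ[𝓝 x] v) : PshW h u := by
  intro i
  refine IsPsh.of_nhds fun z hz => ?_
  obtain ⟨v, hv, he⟩ := hu ((B.e i).symm z)
  have h1 : ∀ᶠ w in 𝓝 z, u ((B.e i).symm w) = v ((B.e i).symm w) :=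
    ((B.e i).continuousAt_symm hz).eventually he
  refine ⟨_, inter_mem ((B.e i).open_target.mem_nhds hz) h1,
    ((hv i).mono inter_subset_left).congr fun w hw => ?_⟩
  have h2 : u ((B.e i).symm w) = v ((B.e i).symm w) := hw.2
  simp only [h2]

/-- an inequality a.e. on an open set holds everywhere -/
theorem le_of_ae {u v : M → EReal} (hu : PshW h u) (hv : PshW h v) {O : Set M} (hO : IsOpen O)
    (hle : AE volume (HA.of B) fun x => x ∈ O → u x ≤ v x) {x : M} (hx : x ∈ O) : u x ≤ v x := by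
  obtain ⟨i, hi⟩ := B.cover x
  have hz := mem_ti hi hx
  have h1 := (hu i).le_of_ae volume (B.e i).open_target hz.1
    ((hv i).uscAt (B.e i).open_target hz.1) ((isOpen_ti hO).mem_nhds hz)
    ((hle i).mono fun w hw hwO => add_le_add (hw hwO.1 hwO.2) le_rfl)
  rw [(B.e i).left_inv hi] at h1
  exact le_of_add_coe h1

variable {X : Type} [TopologicalSpace X] {A : Atl n X} {G : Type} [Group G] {D : MonD A G}

/-- a lower bound a.e. near the base point spreads along the fibres -/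
theorem shell_tube (F : Fol D p) (h : HM F.L) {x₀ : D.cov G} (hx : x₀ ∈ F.T.M0)
    {U : Set (D.cov G)} (hU : U ∈ 𝓝 x₀) : ∃ r₀ : ℝ, 0 < r₀ ∧ ∀ u v : D.cov G → EReal,
      PshW (D.pullHM (F := G) h) u → PshW (D.pullHM (F := G) h) v → ∀ ρ : ℝ,
      (AE volume (HA.of (D.atl G)) fun x => x ∈ U → x ∈ F.T.T x₀ → ρ ≤ ‖F.T.π x₀ x‖ → u x ≤ v x) →
      ∀ x ∈ F.T.T x₀, ρ < ‖F.T.π x₀ x‖ → ‖F.T.π x₀ x‖ < r₀ → u x ≤ v x := by
  have hT := F.T.T_opn x₀ hx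
  have h1 := (tube_subm F.T hx (F.T.T_mem x₀ hx)).image_mem_nhds
    (inter_mem (interior_mem_nhds.2 hU) (hT.mem_nhds (F.T.T_mem x₀ hx)))
  rw [F.T.π_self x₀ hx] at h1
  obtain ⟨r₀, hr₀, hB⟩ := Metric.mem_nhds_iff.1 h1
  obtain ⟨β, -, hβ⟩ := bas F h hx
  refine ⟨r₀, hr₀, fun u v hu hv ρ hae x hxT h2 h3 => ?_⟩
  obtain ⟨x', ⟨k1, k2⟩, k3⟩ := hB (mem_ball_zero_iff.2 h3)
  have hO : IsOpen (interior U ∩ (F.T.T x₀ ∩ (fun y => ‖F.T.π x₀ y‖) ⁻¹' Ioi ρ)) :=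
    isOpen_interior.inter ((F.T.π_cont x₀ hx).norm.isOpen_inter_preimage hT isOpen_Ioi)
  have h4 : u x' ≤ v x' := le_of_ae hu hv hO
    (hae.mono fun y hy hyO => hy (interior_subset hyO.1) hyO.2.1 (le_of_lt hyO.2.2))
    ⟨k1, k2, by simpa only [mem_preimage, mem_Ioi, k3] using h2⟩
  have h5 : x ∈ F.T.W x' := by
    rw [F.T.π_fib x₀ hx x' k2]
    exact ⟨hxT, k3.symm⟩
  refine le_of_add_coe (c := β x) ?_
  rw [← hβ u hu x' k2 x h5, ← hβ v hv x' k2 x h5]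
  exact add_le_add h4 le_rfl

/-- **`Pol` from two weights, a pole and a local shell bound** -/
theorem pol_of_loc [T2Space X] (F : Fol D p) (h : HM F.L) {φ S : D.cov G → EReal}
    (hφ : PshW (D.pullHM (F := G) h) φ) (hinv : ∀ (g : G) x, φ (g • x) = φ x)
    (h0 : ∀ x, φ x ≤ 0) {x₀ : D.cov G} (hx : x₀ ∈ F.T.M0) {q : (D.atl G).ι}
    (hq : x₀ ∈ ((D.atl G).e q).source)
    (hint : ∀ N : ℝ, 0 < N → ∃ V ∈ 𝓝 ((D.atl G).e q x₀),
      ∫⁻ z in V, eN N (φ (((D.atl G).e q).symm z)) < ⊤)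
    (hS : PshW (D.pullHM (F := G) h) S) (hle : ∀ x, S x ≤ φ x) {c C : ℝ} (hc : 0 < c)
    (hpole : ∀ᶠ z in 𝓝[≠] ((D.atl G).e q x₀), S (((D.atl G).e q).symm z) ≤
      ((c * Real.log ‖z - (D.atl G).e q x₀‖ + C : ℝ) : EReal))
    {U : Set (D.cov G)} (hU : U ∈ 𝓝 x₀) (hsh : ∀ ρ : ℝ, 0 < ρ → ∃ a : ℝ,
      AE volume (HA.of (D.atl G)) fun x => x ∈ U → x ∈ F.T.T x₀ → ρ ≤ ‖F.T.π x₀ x‖ →
        φ x + a ≤ S x) : Nonempty (Pol F h) := by
  classical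
  obtain ⟨r₀, hr₀, hr⟩ := shell_tube F h hx hU
  have hT := F.T.T_opn x₀ hx
  have key : ∀ ρ : ℝ, 0 < ρ → ∃ a : ℝ, a ≤ 0 ∧ ∀ x ∈ F.T.T x₀, min ρ r₀ / 2 ≤ ‖F.T.π x₀ x‖ →
      ‖F.T.π x₀ x‖ < r₀ → φ x + a ≤ S x := fun ρ hρ => by
    have h1 : 0 < min ρ r₀ := lt_min hρ hr₀
    obtain ⟨a, ha⟩ := hsh (min ρ r₀ / 4) (by positivity)
    refine ⟨min a 0, min_le_right _ _, fun x hxT h2 h3 => le_trans ?_
      (hr _ _ (pshW_add hφ a) hS _ ha x hxT (by linarith) h3)⟩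
    exact add_le_add le_rfl (EReal.coe_le_coe_iff.2 (min_le_left _ _))
  choose! a ha0 ha using key
  have hop : ∀ r : ℝ, IsOpen {x | x ∈ F.T.T x₀ ∧ ‖F.T.π x₀ x‖ < r} := fun r =>
    (F.T.π_cont x₀ hx).norm.isOpen_inter_preimage hT isOpen_Iio
  refine ⟨{
    φ := φ, φ_psh := hφ, φ_inv := hinv, φ_le := h0, x₀ := x₀, x₀_mem := hx, q := q, q_mem := hq
    int := hint, c := c, c_pos := hc
    S := fun ρ x => if x ∈ F.T.T x₀ ∧ ‖F.T.π x₀ x‖ < min ρ r₀ / 2 then S x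
      else max (S x) (φ x + a ρ)
    S_psh := fun ρ hρ => pshW_of_loc fun x => ?_
    S_le := fun ρ hρ x => ?_
    S_ge := fun ρ hρ => ⟨-a ρ, fun x hx' => ?_⟩
    S_pole := fun ρ hρ => ⟨C, ?_⟩ }⟩
  · have h1 : 0 < min ρ r₀ := lt_min hρ.1 hr₀
    by_cases hx1 : x ∈ F.T.T x₀ ∧ ‖F.T.π x₀ x‖ < r₀
    · refine ⟨S, hS, ?_⟩
      filter_upwards [(hop r₀).mem_nhds hx1] with y hy
      split_ifs with h2
      · rfl
      · exact max_eq_left (ha ρ hρ.1 y hy.1 (not_lt.1 fun h3 => h2 ⟨hy.1, h3⟩) hy.2)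
    · refine ⟨_, pshW_max hS (pshW_add hφ (a ρ)), ?_⟩
      have h2 := (F.T.π_prop x₀ hx (min ρ r₀ / 2)
        (by linarith [min_le_left ρ r₀, hρ.2])).isClosed.isOpen_compl
      filter_upwards [h2.mem_nhds (x := x) fun h3 =>
        hx1 ⟨h3.1, by linarith [h3.2, min_le_right ρ r₀]⟩] with y hy
      exact if_neg fun h3 => hy ⟨h3.1, h3.2.le⟩
  · split_ifs
    · exact hle x
    · refine max_le (hle x) ?_
      simpa using add_le_add (le_refl (φ x)) (EReal.coe_le_coe_iff.2 (ha0 ρ hρ.1))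
  · have h1 : 0 < min ρ r₀ := lt_min hρ.1 hr₀
    rw [if_neg fun h3 => hx' ⟨h3.1, by linarith [h3.2, min_le_left ρ r₀]⟩, EReal.coe_neg,
      sub_eq_add_neg, neg_neg]
    exact le_max_right _ _
  · have h1 : 0 < min ρ r₀ := lt_min hρ.1 hr₀
    have h2 := (hop (min ρ r₀ / 2)).mem_nhds (x := x₀)
      ⟨F.T.T_mem x₀ hx, by rw [F.T.π_self x₀ hx, norm_zero]; positivity⟩
    filter_upwards [hpole, nhdsWithin_le_nhds
      ((HA.ev_chart (A := HA.of (D.atl G)) (i := q) hq).1 h2)] with z hz hz'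
    exact (if_pos hz').trans_le hz

/-- **the end of `RelnAStmt`** -/
theorem pol_of_shell [T2Space X] [Nonempty (D.cov G)] (F : Fol D p) (h : HM F.L)
    (T : TP volume (HA.of (D.atl G)) G) (hw : T.wt = Rn.wtD D h) (h0 : ∀ x, T.φ x ≤ 0)
    (hS : Rn.Shell F.T T) : Nonempty (Pol F h) := by
  obtain ⟨y, -, hy, ht, k, U, hU, hsh⟩ :=
    hS.exists_mem (x := Classical.arbitrary _) (W := univ) univ_mem
  obtain ⟨q, hq⟩ := (D.atl G).cover y
  obtain ⟨c, hc, hp⟩ := ht.pole k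
  obtain ⟨C, hC⟩ := hp q hq
  have h1 := T.φ_psh
  have h2 := ht.psh k
  rw [hw] at h1 h2
  refine pol_of_loc F h h1 T.φ_inv h0 hy hq (fun N hN => (ht.good N hN).chart (i := q) hq) h2
    (ht.le k) hc hC hU fun ρ hρ => ?_
  obtain ⟨a, ha⟩ := hsh ρ hρ
  refine ⟨a, ((ht.eq k).and T.M0_ae).mono fun x hx k1 k2 k3 => ?_⟩
  rw [hx.1, add_comm]
  exact add_le_add (ha x k1 k2 k3 hx.2) le_rfl

end

end Crest.Agent.X261.Rn93
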